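import Vale.Agent.P045.Baer.Pins

/-!
# P045 spectral step: inequalities between real parameters

`s` is `√q`, `a` is `√s`, `L` is `log q`.
-/

namespace Vale.P045.Baer.Spec

lemma asymp : ∃ P0 : ℕ, ∀ p : ℕ, P0 ≤ p →
    (10 : ℝ) ^ 9 ≤ Real.log (((p ^ 2 : ℕ)) : ℝ) ∧
    (10 : ℝ) ^ 10 * Real.log (((p ^ 2 : ℕ)) : ℝ) ^ 150 ≤ Real.sqrt (p : ℝ) := by
  have h2 : (fun x : ℝ => Real.log x ^ (150 : ℝ)) =o[Filter.atTop] fun x => x ^ (1 / 4 : ℝ) :=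
    isLittleO_log_rpow_rpow_atTop _ (by norm_num)
  have h3 := h2.bound (show (0 : ℝ) < 1 / 10 ^ 10 by norm_num)
  have hcast : Filter.Tendsto (fun p : ℕ => ((p ^ 2 : ℕ) : ℝ)) Filter.atTop Filter.atTop :=
    tendsto_natCast_atTop_atTop.comp (Filter.tendsto_pow_atTop (two_ne_zero))
  obtain ⟨P0, hP⟩ := Filter.eventually_atTop.1
    (((Real.tendsto_log_atTop.comp hcast).eventually_ge_atTop ((10 : ℝ) ^ 9)).and
      (hcast.eventually h3))
  refine ⟨P0, fun p hp => ⟨(hP p hp).1, ?_⟩⟩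
  have hx := (hP p hp).2
  have hlpos : 0 ≤ Real.log ((p ^ 2 : ℕ) : ℝ) := le_trans (by norm_num) (hP p hp).1
  have e : ((p ^ 2 : ℕ) : ℝ) ^ (1 / 4 : ℝ) = Real.sqrt (p : ℝ) := by
    rw [Real.sqrt_eq_rpow]
    push_cast
    rw [← Real.rpow_natCast (p : ℝ) 2, ← Real.rpow_mul (Nat.cast_nonneg p)]
    norm_num
  rw [Real.norm_of_nonneg (Real.rpow_nonneg hlpos _),
    Real.norm_of_nonneg (Real.rpow_nonneg (Nat.cast_nonneg _) _), e,
    show (150 : ℝ) = ((150 : ℕ) : ℝ) by norm_num, Real.rpow_natCast] at hx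
  linarith

/-- The size conditions on the parameters. -/
structure Par (s a L : ℝ) : Prop where
  L_big : (10 : ℝ) ^ 9 ≤ L
  a_sq : a ^ 2 = s
  a_big : (10 : ℝ) ^ 10 * L ^ 150 ≤ a

namespace Par

variable {s a L : ℝ}

lemma L_one (P : Par s a L) : 1 ≤ L := le_trans (by norm_num) P.L_big

lemma L_pos (P : Par s a L) : 0 < L := lt_of_lt_of_le one_pos P.L_one

lemma L_pow (P : Par s a L) {m n : ℕ} (h : m ≤ n) : L ^ m ≤ L ^ n :=
  pow_le_pow_right₀ P.L_one h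

lemma a_pow (P : Par s a L) {m : ℕ} (h : m ≤ 150) : (10 : ℝ) ^ 10 * L ^ m ≤ a :=
  le_trans (mul_le_mul_of_nonneg_left (P.L_pow h) (by positivity)) P.a_big

lemma a_one (P : Par s a L) : 1 ≤ a := by
  have := P.a_pow (m := 0) (by norm_num); simp at this; linarith

lemma a_le (P : Par s a L) : a ≤ s := by
  rw [← P.a_sq, pow_two]; exact le_mul_of_one_le_left (le_trans zero_le_one P.a_one) P.a_one

lemma s_one (P : Par s a L) : 1 ≤ s := P.a_one.trans P.a_le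

lemma s_pow (P : Par s a L) {m : ℕ} (h : m ≤ 150) : (10 : ℝ) ^ 10 * L ^ m ≤ s :=
  (P.a_pow h).trans P.a_le

lemma small76 (P : Par s a L) {c : ℝ} {m : ℕ} (hc : 0 ≤ c) (hm : m ≤ 149) :
    c * s ^ 6 * a * L ^ m ≤ c / 10 ^ 10 * (s ^ 7 / L) := by
  have ha := P.a_one
  have hs := P.s_one
  have hL := P.L_pos
  rw [div_mul_div_comm, le_div_iff₀ (by positivity)]
  calc c * s ^ 6 * a * L ^ m * (10 ^ 10 * L) = c * s ^ 6 * a * (10 ^ 10 * L ^ (m + 1)) := by ring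
    _ ≤ c * s ^ 6 * a * a := mul_le_mul_of_nonneg_left (P.a_pow (by omega)) (by positivity)
    _ = c * s ^ 7 := by rw [show c * s ^ 6 * a * a = c * s ^ 6 * a ^ 2 by ring, P.a_sq]; ring

lemma small6 (P : Par s a L) {c : ℝ} {m : ℕ} (hc : 0 ≤ c) (hm : m ≤ 149) :
    c * s ^ 6 * L ^ m ≤ c / 10 ^ 10 * (s ^ 7 / L) := by
  have hs := P.s_one
  have hL := P.L_pos
  refine le_trans ?_ (P.small76 hc hm)
  refine mul_le_mul_of_nonneg_right ?_ (by positivity)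
  exact le_mul_of_one_le_right (by positivity) P.a_one

end Par

/-- Bounds on the size of the line set. -/
structure Size (s L u : ℝ) : Prop where
  hi : u ≤ 2 * s ^ 2
  lo : s ^ 2 ≤ u + s * L ^ 2
  half : s ^ 2 / 2 ≤ u

variable {s a L u : ℝ}

lemma size_mk (P : Par s a L) (h : ℝ) (hh : h ≤ s) (hup : u ≤ s ^ 2 + h)
    (hlo : s ^ 2 ≤ u + s * L ^ 2) : Size s L u := by
  have hs := P.s_one
  refine ⟨by nlinarith, hlo, ?_⟩
  have h2 := mul_le_mul_of_nonneg_left (P.s_pow (m := 2) (by norm_num)) (by linarith : (0 : ℝ) ≤ s)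
  have : 0 ≤ s * L ^ 2 := by positivity
  linarith

lemma T1_bound (P : Par s a L) (Z : Size s L u) (hu : 0 ≤ u) {T1 : ℝ} (hT : 0 ≤ T1)
    (h : (s / L ^ 20 - 1) * T1 ≤ u * (u - 1)) : T1 ≤ 8 * s ^ 3 * L ^ 20 := by
  have hs := P.s_one
  have hL := P.L_pos
  have hsL := P.s_pow (m := 20) (by norm_num)
  have hL20 : (0 : ℝ) < L ^ 20 := pow_pos hL 20
  have h2 : 2 ≤ s / L ^ 20 := by rw [le_div_iff₀ hL20]; linarith
  have h3 : u * (u - 1) ≤ 4 * s ^ 4 := by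
    have := pow_le_pow_left₀ hu Z.hi 2
    linarith
  have h4 : s / L ^ 20 * T1 ≤ 8 * s ^ 4 := by
    have := mul_le_mul_of_nonneg_right h2 hT
    linarith
  rw [div_mul_eq_mul_div, div_le_iff₀ hL20] at h4
  refine le_of_mul_le_mul_left ?_ (lt_of_lt_of_le one_pos hs)
  linarith

lemma E_bound (P : Par s a L) (Z : Size s L u) (hu : 0 ≤ u) {T1 T2 μ E : ℝ}
    (hT1 : T1 ≤ 8 * s ^ 3 * L ^ 20) (hμ0 : 0 ≤ μ) (hμ : μ ≤ 8 * s * L ^ 20)
    (hlo : u * (u - 1) - u ^ 2 / L ^ 6 ≤ T2) (hhi : T2 ≤ u ^ 2 + T1)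
    (hE : E ≤ s ^ 2 * T2 - 2 * u * (T2 - u * μ) + u * u ^ 2) :
    E ≤ 20 * s ^ 6 / L ^ 6 := by
  have hs := P.s_one
  have hL := P.L_pos
  have hs0 : (0 : ℝ) ≤ s := le_trans zero_le_one hs
  have e2 : E ≤ (s ^ 2 - u) * u ^ 2 + 2 * u ^ 3 / L ^ 6 + s ^ 2 * T1 + 2 * u ^ 2
      + 2 * u ^ 2 * μ := by
    have i1 : s ^ 2 * T2 ≤ s ^ 2 * (u ^ 2 + T1) := mul_le_mul_of_nonneg_left hhi (sq_nonneg s)
    have i2 : 2 * u * (u * (u - 1) - u ^ 2 / L ^ 6) ≤ 2 * u * T2 :=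
      mul_le_mul_of_nonneg_left hlo (by positivity)
    have i3 : 2 * u * (u * (u - 1) - u ^ 2 / L ^ 6)
        = 2 * u ^ 3 - 2 * u ^ 2 - 2 * u ^ 3 / L ^ 6 := by ring
    linarith
  have hu2 : u ^ 2 ≤ 4 * s ^ 4 := by
    have := pow_le_pow_left₀ hu Z.hi 2; linarith
  have b1 : (s ^ 2 - u) * u ^ 2 ≤ 4 * s ^ 5 * L ^ 20 := by
    calc (s ^ 2 - u) * u ^ 2 ≤ s * L ^ 2 * u ^ 2 :=
          mul_le_mul_of_nonneg_right (by linarith [Z.lo]) (sq_nonneg u)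
      _ ≤ s * L ^ 20 * (4 * s ^ 4) :=
          mul_le_mul (mul_le_mul_of_nonneg_left (P.L_pow (by norm_num)) hs0) hu2 (sq_nonneg u)
            (by positivity)
      _ = _ := by ring
  have b2 : 2 * u ^ 3 / L ^ 6 ≤ 16 * s ^ 6 / L ^ 6 := by
    refine div_le_div_of_nonneg_right ?_ (by positivity)
    have := pow_le_pow_left₀ hu Z.hi 3
    linarith
  have b3 : s ^ 2 * T1 ≤ 8 * s ^ 5 * L ^ 20 := by
    calc s ^ 2 * T1 ≤ s ^ 2 * (8 * s ^ 3 * L ^ 20) :=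
          mul_le_mul_of_nonneg_left hT1 (sq_nonneg s)
      _ = _ := by ring
  have b4 : 2 * u ^ 2 * μ ≤ 64 * s ^ 5 * L ^ 20 := by
    calc 2 * u ^ 2 * μ ≤ 2 * (4 * s ^ 4) * (8 * s * L ^ 20) :=
          mul_le_mul (by linarith) hμ hμ0 (by positivity)
      _ = _ := by ring
  have b5 : 2 * u ^ 2 ≤ 8 * s ^ 5 * L ^ 20 := by
    have h1 : (1 : ℝ) ≤ s * L ^ 20 :=
      one_le_mul_of_one_le_of_one_le hs (one_le_pow₀ P.L_one)
    have := mul_le_mul_of_nonneg_left h1 (show (0 : ℝ) ≤ 8 * s ^ 4 by positivity)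
    linarith
  have b7 : 84 * s ^ 5 * L ^ 20 ≤ 4 * s ^ 6 / L ^ 6 := by
    rw [le_div_iff₀ (pow_pos hL 6)]
    have := mul_le_mul_of_nonneg_left (P.s_pow (m := 26) (by norm_num)) (pow_nonneg hs0 5)
    have : 0 ≤ s ^ 5 * L ^ 26 := by positivity
    linarith
  have : 20 * s ^ 6 / L ^ 6 = 16 * s ^ 6 / L ^ 6 + 4 * s ^ 6 / L ^ 6 := by ring
  linarith

lemma sq_dev (x u K : ℝ) (hK : 0 < K) :
    |x ^ 2 - u ^ 2| ≤ (1 + K) * (x - u) ^ 2 + u ^ 2 / K := by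
  have h1 : 0 ≤ (K * (x - u) - u) ^ 2 / K := by positivity
  have h2 : 0 ≤ (K * (x - u) + u) ^ 2 / K := by positivity
  have e1 : (K * (x - u) - u) ^ 2 / K = K * (x - u) ^ 2 - 2 * u * (x - u) + u ^ 2 / K := by
    field_simp; ring
  have e2 : (K * (x - u) + u) ^ 2 / K = K * (x - u) ^ 2 + 2 * u * (x - u) + u ^ 2 / K := by
    field_simp; ring
  rw [e1] at h1
  rw [e2] at h2
  rw [abs_le]
  constructor <;> nlinarith [sq_nonneg (x - u)]

lemma final_bound (P : Par s a L) (Z : Size s L u) (hu : 0 ≤ u)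
    {D T1 T2 μ E TAB O2 TB TC t : ℝ} (hT10 : 0 ≤ T1) (hT1 : T1 ≤ 8 * s ^ 3 * L ^ 20)
    (hT2 : T2 ≤ 8 * s ^ 4) (hμ0 : 0 ≤ μ) (hμ : μ ≤ 8 * s * L ^ 20) (hE0 : 0 ≤ E)
    (hE : E ≤ 20 * s ^ 6 / L ^ 6) (_ht0 : 0 ≤ t) (ht : t ≤ 2 * L ^ 84)
    (hTAB : TAB ≤ s * L * (2 * E + 4 * s ^ 2 * 2 * μ ^ 2))
    (hO2 : O2 ≤ 4 * s * T1 ^ 2 / L ^ 41 + 2 * (s * L) * t * (4 * s ^ 2) * T1)
    (hTB : |TB| ≤ T1 * (3 * s ^ 2 * a)) (hTC : |TC| ≤ (s ^ 2 + 1) * (s ^ 2 * a))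
    (hmain : u ^ 2 * D ≤ TAB + (T2 * (3 * s ^ 2 * a + 4 * s * (s * L)) + O2) - 2 * μ * TB
      + μ ^ 2 * TC + s * L * ((2 + L ^ 3) * E + u ^ 3 / L ^ 3)) :
    D ≤ s ^ 2 * s / 100000 := by
  have hs := P.s_one
  have hL := P.L_pos
  have ha := P.a_one
  have hs0 : (0 : ℝ) ≤ s := le_trans zero_le_one hs
  have hsd : 0 ≤ s * L := by positivity
  have hW : 0 ≤ s ^ 7 / L := by positivity
  have k1 : s * L * ((2 + L ^ 3) * E + u ^ 3 / L ^ 3) ≤ 68 * (s ^ 7 / L) := by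
    have h3 : u ^ 3 ≤ 8 * s ^ 6 := by have := pow_le_pow_left₀ hu Z.hi 3; linarith
    have h4 : (2 + L ^ 3) * E ≤ 3 * L ^ 3 * (20 * s ^ 6 / L ^ 6) :=
      mul_le_mul (by linarith [one_le_pow₀ (n := 3) P.L_one]) hE hE0 (by positivity)
    calc s * L * ((2 + L ^ 3) * E + u ^ 3 / L ^ 3)
        ≤ s * L * (3 * L ^ 3 * (20 * s ^ 6 / L ^ 6) + 8 * s ^ 6 / L ^ 3) :=
          mul_le_mul_of_nonneg_left
            (add_le_add h4 (div_le_div_of_nonneg_right h3 (by positivity))) hsd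
      _ = 68 * (s ^ 7 / L ^ 2) := by field_simp; ring
      _ ≤ _ := mul_le_mul_of_nonneg_left (div_le_div_of_nonneg_left (by positivity) hL
          (by simpa using P.L_pow (m := 1) (n := 2) (by norm_num))) (by norm_num)
  have hμ2 : μ ^ 2 ≤ 64 * s ^ 2 * L ^ 40 := by
    have := pow_le_pow_left₀ hμ0 hμ 2; linarith
  have k2 : TAB ≤ 41 * (s ^ 7 / L) := by
    refine hTAB.trans ?_
    calc s * L * (2 * E + 4 * s ^ 2 * 2 * μ ^ 2)
        ≤ s * L * (2 * (20 * s ^ 6 / L ^ 6) + 4 * s ^ 2 * 2 * (64 * s ^ 2 * L ^ 40)) := by gcongr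
      _ = 40 * (s ^ 7 / L ^ 5) + 512 * s ^ 5 * L ^ 41 := by field_simp; ring
      _ ≤ 40 * (s ^ 7 / L) + 512 * s ^ 6 * L ^ 41 := by
          refine add_le_add (mul_le_mul_of_nonneg_left (div_le_div_of_nonneg_left (by positivity)
            hL (by simpa using P.L_pow (m := 1) (n := 5) (by norm_num))) (by norm_num)) ?_
          gcongr
          norm_num
      _ ≤ _ := by linarith [P.small6 (c := 512) (m := 41) (by norm_num) (by norm_num)]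
  have k3 : T2 * (3 * s ^ 2 * a + 4 * s * (s * L)) ≤ s ^ 7 / L := by
    calc T2 * (3 * s ^ 2 * a + 4 * s * (s * L))
        ≤ 8 * s ^ 4 * (3 * s ^ 2 * a + 4 * s * (s * L)) :=
          mul_le_mul_of_nonneg_right hT2 (by positivity)
      _ = 24 * s ^ 6 * a * L ^ 0 + 32 * s ^ 6 * L ^ 1 := by ring
      _ ≤ _ := by
          linarith [P.small76 (c := 24) (m := 0) (by norm_num) (by norm_num),
            P.small6 (c := 32) (m := 1) (by norm_num) (by norm_num)]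
  have hT12 : T1 ^ 2 ≤ 64 * s ^ 6 * L ^ 40 := by
    have := pow_le_pow_left₀ hT10 hT1 2; linarith
  have k4 : O2 ≤ 257 * (s ^ 7 / L) := by
    refine hO2.trans ?_
    calc 4 * s * T1 ^ 2 / L ^ 41 + 2 * (s * L) * t * (4 * s ^ 2) * T1
        ≤ 4 * s * (64 * s ^ 6 * L ^ 40) / L ^ 41
          + 2 * (s * L) * (2 * L ^ 84) * (4 * s ^ 2) * (8 * s ^ 3 * L ^ 20) := by gcongr
      _ = 256 * (s ^ 7 / L) + 128 * s ^ 6 * L ^ 105 := by field_simp; ring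
      _ ≤ _ := by linarith [P.small6 (c := 128) (m := 105) (by norm_num) (by norm_num)]
  have k5 : -(2 * μ * TB) ≤ s ^ 7 / L := by
    calc -(2 * μ * TB) ≤ 2 * μ * |TB| := by
          rw [← mul_neg]; exact mul_le_mul_of_nonneg_left (neg_le_abs _) (by positivity)
      _ ≤ 2 * μ * (T1 * (3 * s ^ 2 * a)) := mul_le_mul_of_nonneg_left hTB (by positivity)
      _ ≤ 2 * (8 * s * L ^ 20) * (8 * s ^ 3 * L ^ 20 * (3 * s ^ 2 * a)) := by gcongr
      _ = 384 * s ^ 6 * a * L ^ 40 := by ring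
      _ ≤ _ := by linarith [P.small76 (c := 384) (m := 40) (by norm_num) (by norm_num)]
  have k6 : μ ^ 2 * TC ≤ s ^ 7 / L := by
    calc μ ^ 2 * TC ≤ μ ^ 2 * ((s ^ 2 + 1) * (s ^ 2 * a)) :=
          mul_le_mul_of_nonneg_left ((le_abs_self _).trans hTC) (sq_nonneg μ)
      _ ≤ 64 * s ^ 2 * L ^ 40 * ((2 * s ^ 2) * (s ^ 2 * a)) := by
          refine mul_le_mul hμ2 (mul_le_mul_of_nonneg_right ?_ (by positivity)) (by positivity)
            (by positivity)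
          linarith [one_le_pow₀ (n := 2) hs]
      _ = 128 * s ^ 6 * a * L ^ 40 := by ring
      _ ≤ _ := by linarith [P.small76 (c := 128) (m := 40) (by norm_num) (by norm_num)]
  have ktot : u ^ 2 * D ≤ 400 * (s ^ 7 / L) := by linarith
  by_cases hD : D ≤ 0
  · exact hD.trans (by positivity)
  · push Not at hD
    have hu4 : s ^ 4 / 4 ≤ u ^ 2 := by
      have := pow_le_pow_left₀ (by positivity) Z.half 2
      linarith
    have h1 : s ^ 4 / 4 * D ≤ 400 * (s ^ 7 / L) :=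
      le_trans (mul_le_mul_of_nonneg_right hu4 hD.le) ktot
    have h2 : 400 * (s ^ 7 / L) ≤ s ^ 7 / 400000 := by
      rw [mul_div_assoc', div_le_div_iff₀ hL (by norm_num)]
      have := mul_le_mul_of_nonneg_left P.L_big (pow_nonneg hs0 7)
      have := pow_nonneg hs0 7
      linarith
    refine le_of_mul_le_mul_left ?_ (show (0 : ℝ) < s ^ 4 / 4 by positivity)
    calc s ^ 4 / 4 * D ≤ _ := h1.trans h2
      _ = _ := by ring

end Vale.P045.Baer.Spec
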