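import Vale.Agent.P045.Baer.Pins

/-!
# P045 spectral step: averaging over weighted tuples of points
-/

namespace Vale.P045.Baer.Spec

open Finset

section Tuples

variable {ι α : Type} [Fintype ι] [DecidableEq ι] [Fintype α] [DecidableEq α]

lemma tuple_two (F : α → ℝ) (g : α → α → ℝ) {i j : ι} (hij : i ≠ j) :
    ∑ P : ι → α, (∏ k, F (P k)) * g (P i) (P j)
      = (∑ a, F a) ^ (Fintype.card ι - 2) * ∑ a, ∑ b, F a * F b * g a b := by
  have e : ∀ P : ι → α, (∏ k, F (P k)) * g (P i) (P j) = ∑ a, ∑ b, g a b *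
      ∏ k, F (P k) * (if k = i then (if P k = a then (1 : ℝ) else 0)
        else if k = j then (if P k = b then (1 : ℝ) else 0) else 1) := by
    intro P
    have : ∀ a b, ∏ k, F (P k) * (if k = i then (if P k = a then (1 : ℝ) else 0)
        else if k = j then (if P k = b then (1 : ℝ) else 0) else 1)
        = (∏ k, F (P k)) * ((if P i = a then (1 : ℝ) else 0) * if P j = b then (1 : ℝ) else 0) := by
      intro a b
      rw [Finset.prod_mul_distrib]
      congr 1
      rw [← Finset.prod_subset (s₁ := ({i, j} : Finset ι)) (subset_univ _)]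
      · simp [Finset.prod_pair hij, hij.symm]
      · intro k _ hk; simp at hk; simp [hk]
    simp only [this]
    rw [Finset.sum_eq_single (P i) (by intros; simp [*, Ne.symm]) (by simp),
      Finset.sum_eq_single (P j) (by intros; simp [*, Ne.symm]) (by simp)]
    simp; ring
  rw [Finset.sum_congr rfl fun P _ => e P, Finset.sum_comm, Finset.mul_sum]
  refine Finset.sum_congr rfl fun a _ => ?_
  rw [Finset.sum_comm, Finset.mul_sum]
  refine Finset.sum_congr rfl fun b _ => ?_
  rw [← Finset.mul_sum, ← Fintype.prod_sum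
    (fun k c => F c * (if k = i then (if c = a then (1 : ℝ) else 0)
      else if k = j then (if c = b then (1 : ℝ) else 0) else 1))]
  have : ∀ k, ∑ c, F c * (if k = i then (if c = a then (1 : ℝ) else 0)
      else if k = j then (if c = b then (1 : ℝ) else 0) else 1)
      = if k = i then F a else if k = j then F b else ∑ c, F c := by
    intro k; split_ifs <;> simp
  simp only [this]
  rw [← Finset.prod_sdiff (subset_univ ({i, j} : Finset ι)), Finset.prod_pair hij]
  simp only [↓reduceIte, hij.symm]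
  rw [Finset.prod_congr rfl (g := fun _ => ∑ c, F c) (by
    intro k hk; simp at hk; simp [hk]), Finset.prod_const, Finset.card_univ_sdiff, Finset.card_pair hij]
  ring

lemma tuple_three (F : α → ℝ) (g : α → α → α → ℝ) {i j l : ι}
    (hij : i ≠ j) (hil : i ≠ l) (hjl : j ≠ l) :
    ∑ P : ι → α, (∏ k, F (P k)) * g (P i) (P j) (P l)
      = (∑ a, F a) ^ (Fintype.card ι - 3) * ∑ a, ∑ b, ∑ c, F a * F b * F c * g a b c := by
  have e : ∀ P : ι → α, (∏ k, F (P k)) * g (P i) (P j) (P l) = ∑ a, ∑ b, ∑ c, g a b c *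
      ∏ k, F (P k) * (if k = i then (if P k = a then (1 : ℝ) else 0)
        else if k = j then (if P k = b then (1 : ℝ) else 0)
        else if k = l then (if P k = c then (1 : ℝ) else 0) else 1) := by
    intro P
    have : ∀ a b c, ∏ k, F (P k) * (if k = i then (if P k = a then (1 : ℝ) else 0)
        else if k = j then (if P k = b then (1 : ℝ) else 0)
        else if k = l then (if P k = c then (1 : ℝ) else 0) else 1)
        = (∏ k, F (P k)) * ((if P i = a then (1 : ℝ) else 0) *
          ((if P j = b then (1 : ℝ) else 0) * if P l = c then (1 : ℝ) else 0)) := by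
      intro a b c
      rw [Finset.prod_mul_distrib]
      congr 1
      rw [← Finset.prod_subset (s₁ := ({i, j, l} : Finset ι)) (subset_univ _)]
      · simp [hij, hil, hjl, hij.symm, hil.symm, hjl.symm]
      · intro k _ hk; simp at hk; simp [hk]
    simp only [this]
    rw [Finset.sum_eq_single (P i) (by intros; simp [*, Ne.symm]) (by simp),
      Finset.sum_eq_single (P j) (by intros; simp [*, Ne.symm]) (by simp),
      Finset.sum_eq_single (P l) (by intros; simp [*, Ne.symm]) (by simp)]
    simp; ring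
  rw [Finset.sum_congr rfl fun P _ => e P, Finset.sum_comm, Finset.mul_sum]
  refine Finset.sum_congr rfl fun a _ => ?_
  rw [Finset.sum_comm, Finset.mul_sum]
  refine Finset.sum_congr rfl fun b _ => ?_
  rw [Finset.sum_comm, Finset.mul_sum]
  refine Finset.sum_congr rfl fun c _ => ?_
  rw [← Finset.mul_sum, ← Fintype.prod_sum
    (fun k d => F d * (if k = i then (if d = a then (1 : ℝ) else 0)
      else if k = j then (if d = b then (1 : ℝ) else 0)
      else if k = l then (if d = c then (1 : ℝ) else 0) else 1))]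
  have : ∀ k, ∑ d, F d * (if k = i then (if d = a then (1 : ℝ) else 0)
      else if k = j then (if d = b then (1 : ℝ) else 0)
      else if k = l then (if d = c then (1 : ℝ) else 0) else 1)
      = if k = i then F a else if k = j then F b else if k = l then F c else ∑ d, F d := by
    intro k; split_ifs <;> simp
  simp only [this]
  have h3 : ({i, j, l} : Finset ι).card = 3 := by simp [hij, hil, hjl]
  rw [← Finset.prod_sdiff (subset_univ ({i, j, l} : Finset ι))]
  simp only [Finset.mem_insert, Finset.mem_singleton, hij, hil, hjl, or_self, not_false_eq_true,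
    Finset.prod_insert, Finset.prod_singleton, ↓reduceIte, hij.symm, hil.symm, hjl.symm]
  rw [Finset.prod_congr rfl (g := fun _ => ∑ c, F c) (by
    intro k hk; simp at hk; simp [hk]), Finset.prod_const, Finset.card_univ_sdiff, h3]
  ring

end Tuples

variable {C : Cfg}

open Classical in
/-- Deviation of the ordinary line through two different points. -/
noncomputable def pairDev (C : Cfg) (d : C.Ln → ℝ) (a b : C.Pt) : ℝ :=
  ∑ l ∈ C.ordinary.filter (fun l => a ≠ b ∧ a ∈ C.pts l ∧ b ∈ C.pts l), d l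

open Classical in
/-- Number of ordinary lines through three points, the first two different. -/
noncomputable def triple (C : Cfg) (a b c : C.Pt) : ℝ :=
  ((C.ordinary.filter (fun l => (a ≠ b ∧ a ∈ C.pts l ∧ b ∈ C.pts l) ∧ c ∈ C.pts l)).card : ℝ)

open Classical in
lemma per_tuple (d : C.Ln → ℝ) (Bd : ℝ) (hBd : ∀ l ∈ C.ordinary, |d l| ≤ Bd) (hBd0 : 0 ≤ Bd)
    (P : Fin C.tp → C.Pt) :
    ∑ x : Fin C.tp × Fin C.tp, pairDev C d (P x.1) (P x.2) ≤ 2 * ∑ l ∈ C.spanned P, d l +
      Bd * ∑ x ∈ univ.filter (fun x : Fin C.tp × Fin C.tp × Fin C.tp =>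
        x.1 ≠ x.2.1 ∧ x.1 ≠ x.2.2 ∧ x.2.1 ≠ x.2.2), triple C (P x.1) (P x.2.1) (P x.2.2) := by
  set K : C.Ln → Finset (Fin C.tp × Fin C.tp) := fun l =>
    univ.filter fun x => P x.1 ≠ P x.2 ∧ P x.1 ∈ C.pts l ∧ P x.2 ∈ C.pts l with hK
  set N : C.Ln → Finset (Fin C.tp × Fin C.tp × Fin C.tp) := fun l =>
    univ.filter fun x => (x.1 ≠ x.2.1 ∧ x.1 ≠ x.2.2 ∧ x.2.1 ≠ x.2.2) ∧
      (P x.1 ≠ P x.2.1 ∧ P x.1 ∈ C.pts l ∧ P x.2.1 ∈ C.pts l) ∧ P x.2.2 ∈ C.pts l with hN
  have h1 : ∑ x : Fin C.tp × Fin C.tp, pairDev C d (P x.1) (P x.2)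
      = ∑ l ∈ C.ordinary, ((K l).card : ℝ) * d l := by
    simp only [pairDev, Finset.sum_filter]
    rw [Finset.sum_comm]
    refine Finset.sum_congr rfl fun l _ => ?_
    rw [← Finset.sum_filter]; simp [hK]
  have h2 : ∑ x ∈ univ.filter (fun x : Fin C.tp × Fin C.tp × Fin C.tp =>
        x.1 ≠ x.2.1 ∧ x.1 ≠ x.2.2 ∧ x.2.1 ≠ x.2.2), triple C (P x.1) (P x.2.1) (P x.2.2)
      = ∑ l ∈ C.ordinary, ((N l).card : ℝ) := by
    simp only [triple, Finset.card_filter, Nat.cast_sum, hN]
    rw [Finset.sum_comm]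
    refine Finset.sum_congr rfl fun l _ => ?_
    rw [Finset.sum_filter]
    refine Finset.sum_congr rfl fun x _ => ?_
    by_cases hA : x.1 ≠ x.2.1 ∧ x.1 ≠ x.2.2 ∧ x.2.1 ≠ x.2.2
    · simp [hA]
    · simp [hA]
  have h3 : ∑ l ∈ C.spanned P, d l = ∑ l ∈ C.ordinary, if (K l).Nonempty then d l else 0 := by
    rw [← Finset.sum_filter]
    refine Finset.sum_congr ?_ (fun _ _ => rfl)
    ext l; simp [Cfg.spanned, hK, Finset.Nonempty]
  rw [h1, h2, h3, Finset.mul_sum, Finset.mul_sum, ← Finset.sum_add_distrib]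
  refine Finset.sum_le_sum fun l hl => ?_
  by_cases hne : (K l).Nonempty
  · rw [if_pos hne]
    obtain ⟨⟨i, j⟩, hx⟩ := hne
    have hx' := hx
    simp [hK] at hx'
    have hij : i ≠ j := fun h => hx'.1 (by rw [h])
    have hswap : (j, i) ∈ K l := by simpa [hK, hx'.2] using fun h => hx'.1 (Eq.symm h)
    have h2le : 2 ≤ (K l).card := by
      rw [← Finset.card_pair (show (i, j) ≠ (j, i) from fun h => hij (congrArg Prod.fst h))]
      exact Finset.card_le_card (by simp [Finset.insert_subset_iff, hx, hswap])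
    have hle : (K l).card ≤ 2 + (N l).card := by
      by_cases hex : ∃ k, k ≠ i ∧ k ≠ j ∧ P k ∈ C.pts l
      · obtain ⟨k, hki, hkj, hk⟩ := hex
        have hsub : ∀ x ∈ K l, ∃ m, (x.1, x.2, m) ∈ N l := by
          rintro ⟨a, b⟩ hab
          simp [hK] at hab
          have hab' : a ≠ b := fun h => hab.1 (by rw [h])
          have hm : ∃ m, m ≠ a ∧ m ≠ b ∧ P m ∈ C.pts l := by
            by_contra hc
            push Not at hc
            have e1 : i = a ∨ i = b := by by_contra h; push Not at h; exact hc i h.1 h.2 hx'.2.1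
            have e2 : j = a ∨ j = b := by by_contra h; push Not at h; exact hc j h.1 h.2 hx'.2.2
            have e3 : k = a ∨ k = b := by by_contra h; push Not at h; exact hc k h.1 h.2 hk
            grind
          obtain ⟨m, hma, hmb, hm⟩ := hm
          exact ⟨m, by simp [hN, hab', hma.symm, hmb.symm, hab.1, hab.2, hm]⟩
        have : (K l).card ≤ (N l).card := by
          refine Finset.card_le_card_of_injOn
            (fun x => if h : x ∈ K l then (x.1, x.2, (hsub x h).choose) else (x.1, x.2, x.1)) ?_ ?_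
          · intro x hx; simp only [Finset.mem_coe] at hx ⊢; rw [dif_pos hx]
            exact (hsub x hx).choose_spec
          · intro x hx y hy h; simp only [Finset.mem_coe] at hx hy
            simp only [dif_pos hx, dif_pos hy, Prod.mk.injEq] at h
            exact Prod.ext h.1 h.2.1
        omega
      · push Not at hex
        have : K l ⊆ {(i, j), (j, i)} := by
          rintro ⟨a, b⟩ hab
          simp [hK] at hab
          have e1 : a = i ∨ a = j := by by_contra h; push Not at h; exact hex a h.1 h.2 hab.2.1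
          have e2 : b = i ∨ b = j := by by_contra h; push Not at h; exact hex b h.1 h.2 hab.2.2
          have : a ≠ b := fun h => hab.1 (by rw [h])
          simp; grind
        have := (Finset.card_le_card this).trans Finset.card_le_two
        omega
    have hc1 : (2 : ℝ) ≤ (K l).card := by exact_mod_cast h2le
    have hc2 : ((K l).card : ℝ) ≤ 2 + (N l).card := by exact_mod_cast hle
    have hd := abs_le.1 (hBd l hl)
    nlinarith
  · have : (K l).card = 0 := by rwa [Finset.card_eq_zero, ← Finset.not_nonempty_iff_eq_empty]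
    rw [this, if_neg hne]; simp; positivity

open Classical in
lemma avg_pairs (hV : C.Valid) (F : C.Pt → ℝ) (hF : ∀ z, 0 ≤ F z) (d : C.Ln → ℝ)
    (B Bd Sm : ℝ) (hBd0 : 0 ≤ Bd) (hSm0 : 0 ≤ Sm)
    (hBd : ∀ l ∈ C.ordinary, |d l| ≤ Bd)
    (hB : ∀ P : Fin C.tp → C.Pt, ∑ l ∈ C.spanned P, d l ≤ B)
    (hS : ∀ l ∈ C.ordinary, ∑ z ∈ C.pts l, F z ≤ Sm) :
    (C.tp : ℝ) * ((C.tp : ℝ) - 1) * ((∑ z, F z) ^ (C.tp - 2) *
        ∑ a, ∑ b, F a * F b * pairDev C d a b)
      ≤ 2 * B * (∑ z, F z) ^ C.tp +
        Bd * (C.tp : ℝ) ^ 3 * ((∑ z, F z) ^ (C.tp - 3) * (Sm * (∑ z, F z) ^ 2)) := by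
  set T := ∑ z, F z with hT
  have hT0 : 0 ≤ T := Finset.sum_nonneg fun z _ => hF z
  have hd0 : ∀ a, pairDev C d a a = 0 := by intro a; simp [pairDev]
  have L : ∑ x : Fin C.tp × Fin C.tp, ∑ P : Fin C.tp → C.Pt,
      (∏ k, F (P k)) * pairDev C d (P x.1) (P x.2)
      = (C.tp : ℝ) * ((C.tp : ℝ) - 1) * (T ^ (C.tp - 2) *
        ∑ a, ∑ b, F a * F b * pairDev C d a b) := by
    have : ∀ x : Fin C.tp × Fin C.tp, ∑ P : Fin C.tp → C.Pt,
        (∏ k, F (P k)) * pairDev C d (P x.1) (P x.2)
        = if x.1 ≠ x.2 then T ^ (C.tp - 2) * ∑ a, ∑ b, F a * F b * pairDev C d a b else 0 := by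
      intro x
      by_cases h : x.1 = x.2
      · simp [h, hd0]
      · simp [h, tuple_two F (pairDev C d) h, hT]
    rw [Finset.sum_congr rfl fun x _ => this x, ← Finset.sum_filter, Finset.sum_const, nsmul_eq_mul]
    congr 1
    have e : (univ.filter fun x : Fin C.tp × Fin C.tp => x.1 ≠ x.2)
        = (univ : Finset (Fin C.tp)).offDiag := by ext x; simp
    rw [e, Finset.offDiag_card, Finset.card_univ, Fintype.card_fin,
      Nat.cast_sub (Nat.le_mul_self _)]
    push_cast; ring
  have R : ∀ x ∈ univ.filter (fun x : Fin C.tp × Fin C.tp × Fin C.tp =>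
        x.1 ≠ x.2.1 ∧ x.1 ≠ x.2.2 ∧ x.2.1 ≠ x.2.2),
      ∑ P : Fin C.tp → C.Pt, (∏ k, F (P k)) * triple C (P x.1) (P x.2.1) (P x.2.2)
        ≤ T ^ (C.tp - 3) * (Sm * T ^ 2) := by
    intro x hx
    simp only [mem_filter, mem_univ, true_and] at hx
    rw [tuple_three F (triple C) hx.1 hx.2.1 hx.2.2, Fintype.card_fin, ← hT]
    refine mul_le_mul_of_nonneg_left ?_ (pow_nonneg hT0 _)
    have : ∀ a b, ∑ c, F a * F b * F c * triple C a b c ≤ F a * F b * Sm := by
      intro a b
      have e : ∑ c, F a * F b * F c * triple C a b c = F a * F b *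
          ∑ l ∈ C.ordinary.filter (fun l => a ≠ b ∧ a ∈ C.pts l ∧ b ∈ C.pts l),
            ∑ c ∈ C.pts l, F c := by
        rw [Finset.mul_sum]
        simp only [triple, Finset.card_filter, Nat.cast_sum, Finset.mul_sum, Finset.sum_filter]
        rw [Finset.sum_comm]
        refine Finset.sum_congr rfl fun l _ => ?_
        by_cases h : a ≠ b ∧ a ∈ C.pts l ∧ b ∈ C.pts l
        · rw [if_pos h, ← Finset.filter_univ_mem (C.pts l), Finset.sum_filter]
          refine Finset.sum_congr rfl fun c _ => ?_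
          split_ifs <;> simp_all
        · rw [if_neg h]; refine Finset.sum_eq_zero fun c _ => ?_
          rw [if_neg (fun hh => h hh.1)]; simp
      rw [e]
      refine mul_le_mul_of_nonneg_left ?_ (mul_nonneg (hF a) (hF b))
      by_cases hab : a = b
      · simp [hab, hSm0]
      · obtain ⟨l, hl, hu⟩ := hV.join a b hab
        calc _ ≤ ∑ _l ∈ C.ordinary.filter (fun l => a ≠ b ∧ a ∈ C.pts l ∧ b ∈ C.pts l), Sm :=
              Finset.sum_le_sum fun m hm => hS m (mem_filter.1 hm).1
          _ ≤ 1 * Sm := by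
              rw [Finset.sum_const, nsmul_eq_mul]
              refine mul_le_mul_of_nonneg_right ?_ hSm0
              have : (C.ordinary.filter (fun l => a ≠ b ∧ a ∈ C.pts l ∧ b ∈ C.pts l)).card ≤ 1 :=
                Finset.card_le_one.2 fun m hm n hn =>
                  (hu m (mem_filter.1 hm).2.2).trans (hu n (mem_filter.1 hn).2.2).symm
              exact_mod_cast this
          _ = Sm := one_mul _
    calc _ ≤ ∑ a, ∑ b, F a * F b * Sm :=
          Finset.sum_le_sum fun a _ => Finset.sum_le_sum fun b _ => this a b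
      _ = Sm * T ^ 2 := by rw [hT, pow_two, Finset.sum_mul_sum, Finset.mul_sum]
                           exact Finset.sum_congr rfl fun a _ => by
                             rw [Finset.mul_sum]; exact Finset.sum_congr rfl fun b _ => by ring
  rw [← L]
  rw [Finset.sum_comm]
  calc _ ≤ ∑ P : Fin C.tp → C.Pt, (∏ k, F (P k)) * (2 * B +
        Bd * ∑ x ∈ univ.filter (fun x : Fin C.tp × Fin C.tp × Fin C.tp =>
          x.1 ≠ x.2.1 ∧ x.1 ≠ x.2.2 ∧ x.2.1 ≠ x.2.2), triple C (P x.1) (P x.2.1) (P x.2.2)) := by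
        refine Finset.sum_le_sum fun P _ => ?_
        rw [← Finset.mul_sum]
        refine mul_le_mul_of_nonneg_left ?_ (Finset.prod_nonneg fun k _ => hF _)
        linarith [per_tuple d Bd hBd hBd0 P, hB P]
    _ = 2 * B * T ^ C.tp + Bd * ∑ x ∈ univ.filter (fun x : Fin C.tp × Fin C.tp × Fin C.tp =>
          x.1 ≠ x.2.1 ∧ x.1 ≠ x.2.2 ∧ x.2.1 ≠ x.2.2),
          ∑ P : Fin C.tp → C.Pt, (∏ k, F (P k)) * triple C (P x.1) (P x.2.1) (P x.2.2) := by
        simp only [mul_add, Finset.sum_add_distrib, Finset.mul_sum]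
        congr 1
        · rw [← Finset.sum_mul, ← Fintype.prod_sum, Finset.prod_const, Finset.card_univ,
            Fintype.card_fin, hT]; ring
        · rw [Finset.sum_comm]
          exact Finset.sum_congr rfl fun x _ => Finset.sum_congr rfl fun P _ => by ring
    _ ≤ _ := by
        refine add_le_add le_rfl ?_
        rw [mul_assoc]
        refine mul_le_mul_of_nonneg_left ?_ hBd0
        refine (Finset.sum_le_sum R).trans ?_
        rw [Finset.sum_const, nsmul_eq_mul]
        refine mul_le_mul_of_nonneg_right ?_ (by positivity)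
        have h := Finset.card_filter_le (univ : Finset (Fin C.tp × Fin C.tp × Fin C.tp))
          (fun x => x.1 ≠ x.2.1 ∧ x.1 ≠ x.2.2 ∧ x.2.1 ≠ x.2.2)
        simp at h
        calc _ ≤ ((C.tp * (C.tp * C.tp) : ℕ) : ℝ) := by exact_mod_cast h
          _ = _ := by push_cast; ring

end Vale.P045.Baer.Spec
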