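import Vale.Agent.P045.Baer.Spec.Plane
import Vale.Agent.P045.Baer.Spec.Pairs
import Vale.Agent.P045.Baer.Spec.Arith

/-!
# P045 spectral step: the terms of the weighted deviation
-/

namespace Vale.P045.Baer.Spec

open Finset

variable {C : Cfg} {h : ℕ}

/-- Deviation of the load of a line. -/
noncomputable def dev (C : Cfg) {h : ℕ} (ω : Omega C h) (l : C.Ln) : ℝ :=
  (C.load ω l : ℝ) - C.nn

/-- All lines but the line at infinity. -/
noncomputable def lines' (C : Cfg) : Finset C.Ln := univ.erase C.inf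

/-- Indicator of the edge set. -/
noncomputable def ind (C : Cfg) {h : ℕ} (ω : Omega C h) (z : C.Pt) : ℝ :=
  if z ∈ C.X ω then 1 else 0

variable (ω : Omega C h)

lemma dev_eq (l : C.Ln) : dev C ω l = lsum C (ind C ω) l - C.nn := by
  simp [dev, Cfg.load, lsum, ind, Finset.inter_comm]

lemma ind_sum : ∑ z, ind C ω z = ((C.X ω).card : ℝ) := by simp [ind]

lemma dev_inf : dev C ω C.inf = -C.nn := by
  have : C.load ω C.inf = 0 := by
    rw [Cfg.load, Finset.card_eq_zero]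
    ext z
    simp only [Cfg.X, Cfg.good, mem_inter, mem_filter, notMem_empty, iff_false, not_and]
    intro hz
    exact hz.1.2.1
  simp [dev, this]

lemma sum_dev (hV : C.Valid) :
    ∑ l ∈ lines' C, dev C ω l = ((C.q : ℝ) + 1) * (((C.X ω).card : ℝ) - (C.q : ℝ) * C.nn) := by
  rw [lines', Finset.sum_erase_eq_sub (mem_univ _), dev_inf]
  simp only [dev_eq, Finset.sum_sub_distrib, sum_lsum hV, ind_sum, Finset.sum_const,
    Finset.card_univ, hV.card_ln, nsmul_eq_mul]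
  push_cast; ring

lemma thru_dev (hV : C.Valid) (a : ℝ) (ha : 1 ≤ a)
    (hmass : |((C.X ω).card : ℝ) - (C.q : ℝ) * C.nn| ≤ (C.q : ℝ) * a) (z : C.Pt) :
    |∑ l ∈ C.linesIn (lines' C) z, dev C ω l| ≤ 3 * (C.q : ℝ) * a := by
  have e : C.linesIn (lines' C) z = (C.linesIn univ z).erase C.inf := by
    ext l; simp [Cfg.linesIn, lines', and_comm]
  have e2 : ∑ l ∈ C.linesIn univ z, dev C ω l
      = (C.q : ℝ) * ind C ω z + ((C.X ω).card : ℝ) - ((C.q : ℝ) + 1) * C.nn := by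
    simp only [dev_eq, Finset.sum_sub_distrib, pencil_sum hV, ind_sum, Finset.sum_const,
      nsmul_eq_mul]
    rw [show (C.linesIn univ z).card = C.q + 1 from hV.card_thru z]
    push_cast; ring
  have hq0 : (0 : ℝ) ≤ (C.q : ℝ) := Nat.cast_nonneg _
  have hi : 0 ≤ ind C ω z ∧ ind C ω z ≤ 1 := by unfold ind; split_ifs <;> norm_num
  have hm := abs_le.1 hmass
  have hn0 : 0 ≤ C.nn := by unfold Cfg.nn; positivity
  have hib : (C.q : ℝ) * ind C ω z ≤ (C.q : ℝ) * a :=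
    mul_le_mul_of_nonneg_left (hi.2.trans ha) hq0
  have hi0 : 0 ≤ (C.q : ℝ) * ind C ω z := mul_nonneg hq0 hi.1
  have hqa := le_mul_of_one_le_right hq0 ha
  have hnq : C.nn ≤ (C.q : ℝ) := by unfold Cfg.nn; linarith
  rw [e]
  by_cases hz : C.inf ∈ C.linesIn univ z
  · rw [Finset.sum_erase_eq_sub hz, e2, dev_inf, abs_le]; constructor <;> linarith
  · rw [Finset.erase_eq_of_notMem hz, e2, abs_le]; constructor <;> linarith

lemma lines'_eq (hV : C.Valid) : lines' C = (C.A ∪ C.B) ∪ C.ordinary := by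
  ext l
  simp only [lines', Cfg.ordinary, mem_erase, mem_univ, and_true, mem_union, mem_filter, true_and]
  constructor
  · intro hl; tauto
  · rintro ((hl | hl) | hl)
    · exact fun e => hV.inf_notA (e ▸ hl)
    · exact fun e => hV.inf_notB (e ▸ hl)
    · exact hl.2.2

lemma disj_ord : Disjoint (C.A ∪ C.B) C.ordinary := by
  rw [Finset.disjoint_left]
  intro l hl hl'
  simp only [mem_union, Cfg.ordinary, mem_filter] at hl hl'
  tauto

lemma ne_inf (hV : C.Valid) {l : C.Ln} (hl : l ∈ (C.A ∪ C.B) ∪ C.ordinary) : l ≠ C.inf := by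
  rw [← lines'_eq hV] at hl; exact ne_of_mem_erase hl

lemma thru_ord (hV : C.Valid) (a B : ℝ) (ha : 1 ≤ a) (hB : 0 ≤ B)
    (hmass : |((C.X ω).card : ℝ) - (C.q : ℝ) * C.nn| ≤ (C.q : ℝ) * a)
    (hd : ∀ l, l ≠ C.inf → |dev C ω l| ≤ B) (hp : (1 : ℝ) ≤ (C.p : ℝ)) (z : C.Pt) :
    |∑ l ∈ C.linesIn C.ordinary z, dev C ω l| ≤ 3 * (C.q : ℝ) * a + 4 * (C.p : ℝ) * B := by
  have e : ∑ l ∈ C.linesIn (lines' C) z, dev C ω l
      = ∑ l ∈ C.linesIn (C.A ∪ C.B) z, dev C ω l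
        + ∑ l ∈ C.linesIn C.ordinary z, dev C ω l := by
    simp only [Cfg.linesIn]
    rw [← Finset.sum_union (Finset.disjoint_filter_filter disj_ord), ← Finset.filter_union,
      ← lines'_eq hV]
  have hdg : ∀ T, C.IsBaer T → C.deg T z ≤ C.p + 1 := by
    intro T hT
    by_cases h2 : 2 ≤ C.deg T z
    · exact (hT.special_deg z h2).le
    · omega
  have h1 : (C.linesIn (C.A ∪ C.B) z).card ≤ (C.p + 1) + (C.p + 1) := by
    simp only [Cfg.linesIn, Finset.filter_union]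
    exact (Finset.card_union_le _ _).trans (add_le_add (hdg _ hV.baerA) (hdg _ hV.baerB))
  have hc : ((C.linesIn (C.A ∪ C.B) z).card : ℝ) ≤ 4 * (C.p : ℝ) := by
    have h2 : ((C.linesIn (C.A ∪ C.B) z).card : ℝ) ≤ (((C.p + 1) + (C.p + 1) : ℕ) : ℝ) := by
      exact_mod_cast h1
    push_cast at h2; linarith
  have h3 : |∑ l ∈ C.linesIn (C.A ∪ C.B) z, dev C ω l| ≤ 4 * (C.p : ℝ) * B := by
    refine (Finset.abs_sum_le_sum_abs _ _).trans ?_
    refine (Finset.sum_le_card_nsmul _ _ B fun l hl => hd l (ne_inf hV ?_)).trans ?_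
    · exact mem_union_left _ (mem_filter.1 hl).1
    · rw [nsmul_eq_mul]; exact mul_le_mul_of_nonneg_right hc hB
  have h4 := abs_le.1 (thru_dev ω hV a ha hmass z)
  have h5 := abs_le.1 h3
  rw [abs_le]; constructor <;> linarith

lemma lin_term (g : C.Pt → ℝ) (hg : ∀ z, 0 ≤ g z) (T : Finset C.Ln) (d : C.Ln → ℝ) (B : ℝ)
    (hB : ∀ z, |∑ l ∈ C.linesIn T z, d l| ≤ B) :
    |∑ l ∈ T, lsum C g l * d l| ≤ (∑ z, g z) * B := by
  rw [swap, Finset.sum_mul]
  refine (Finset.abs_sum_le_sum_abs _ _).trans (Finset.sum_le_sum fun z _ => ?_)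
  rw [abs_mul, abs_of_nonneg (hg z)]
  exact mul_le_mul_of_nonneg_left (hB z) (hg z)

lemma sq_split (g : C.Pt → ℝ) (d : C.Ln → ℝ) :
    ∑ l ∈ C.ordinary, lsum C g l ^ 2 * d l
      = ∑ z, g z ^ 2 * ∑ l ∈ C.linesIn C.ordinary z, d l
        + ∑ z, ∑ w, g z * g w * pairDev C d z w := by
  have e : ∑ z, ∑ w, g z * g w * pairDev C d z w
      = ∑ l ∈ C.ordinary, d l * (lsum C g l ^ 2 - lsum C (fun z => g z ^ 2) l) := by
    simp only [pairDev, Finset.mul_sum, Finset.sum_filter]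
    rw [Finset.sum_congr rfl fun z _ => Finset.sum_comm, Finset.sum_comm]
    refine Finset.sum_congr rfl fun l _ => ?_
    rw [← Finset.sum_subset (subset_univ (C.pts l))
      (fun z _ hz => Finset.sum_eq_zero fun w _ => by simp [hz])]
    simp only [lsum, pow_two, Finset.sum_mul]
    rw [← Finset.sum_sub_distrib, Finset.mul_sum]
    refine Finset.sum_congr rfl fun z hz => ?_
    have : ∑ w, g z * g w * (if z ≠ w ∧ z ∈ C.pts l ∧ w ∈ C.pts l then d l else 0)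
        = ∑ w ∈ (C.pts l).erase z, g z * g w * d l := by
      simp only [mul_ite, mul_zero]
      rw [← Finset.sum_filter]
      refine Finset.sum_congr ?_ fun _ _ => rfl
      ext w; simp [hz, eq_comm]
    rw [this, Finset.sum_erase_eq_sub hz, mul_sub, Finset.mul_sum, Finset.mul_sum]
    congr 1
    · exact Finset.sum_congr rfl fun w _ => by ring
    · ring
  rw [e, ← swap, ← Finset.sum_add_distrib]
  exact Finset.sum_congr rfl fun l _ => by ring

lemma baer_term (g : C.Pt → ℝ) (d : C.Ln → ℝ) (μ B E N : ℝ) (T : Finset C.Ln) (hB0 : 0 ≤ B)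
    (hd : ∀ l ∈ T, |d l| ≤ B) (hE : ∑ l ∈ T, (lsum C g l - μ) ^ 2 ≤ E)
    (hN : ((T.card : ℕ) : ℝ) ≤ N) :
    ∑ l ∈ T, lsum C g l ^ 2 * d l ≤ B * (2 * E + N * 2 * μ ^ 2) := by
  calc ∑ l ∈ T, lsum C g l ^ 2 * d l
      ≤ ∑ l ∈ T, B * (2 * (lsum C g l - μ) ^ 2 + 2 * μ ^ 2) := by
        refine Finset.sum_le_sum fun l hl => ?_
        have h2 : lsum C g l ^ 2 ≤ 2 * (lsum C g l - μ) ^ 2 + 2 * μ ^ 2 := by
          linarith [sq_nonneg (lsum C g l - 2 * μ)]
        calc lsum C g l ^ 2 * d l ≤ lsum C g l ^ 2 * B :=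
              mul_le_mul_of_nonneg_left ((le_abs_self _).trans (hd l hl)) (sq_nonneg _)
          _ ≤ _ := by rw [mul_comm]; exact mul_le_mul_of_nonneg_left h2 hB0
    _ ≤ _ := by
        rw [← Finset.mul_sum, Finset.sum_add_distrib, Finset.sum_const, nsmul_eq_mul,
          ← Finset.mul_sum]
        refine mul_le_mul_of_nonneg_left (add_le_add (by linarith) ?_) hB0
        linarith [mul_le_mul_of_nonneg_right hN (show (0 : ℝ) ≤ 2 * μ ^ 2 by positivity)]

lemma transfer (x d : C.Ln → ℝ) (T U : Finset C.Ln) (hUT : U ⊆ T) (u B K E : ℝ) (hK : 0 < K)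
    (hB0 : 0 ≤ B) (hd : ∀ l ∈ T, |d l| ≤ B) (hu : u = (U.card : ℝ))
    (hE : (∑ l ∈ univ \ U, x l ^ 2) + ∑ l ∈ U, (x l - u) ^ 2 ≤ E) :
    u ^ 2 * ∑ l ∈ U, d l ≤ ∑ l ∈ T, x l ^ 2 * d l + B * ((2 + K) * E + u ^ 3 / K) := by
  have hn1 : 0 ≤ ∑ l ∈ univ \ U, x l ^ 2 := Finset.sum_nonneg fun _ _ => sq_nonneg _
  have hn2 : 0 ≤ ∑ l ∈ U, (x l - u) ^ 2 := Finset.sum_nonneg fun _ _ => sq_nonneg _
  have e : u ^ 2 * ∑ l ∈ U, d l = ∑ l ∈ T, x l ^ 2 * d l - ∑ l ∈ T \ U, x l ^ 2 * d l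
      - ∑ l ∈ U, (x l ^ 2 - u ^ 2) * d l := by
    rw [← Finset.sum_sdiff hUT (f := fun l => x l ^ 2 * d l), Finset.mul_sum]
    simp only [sub_mul, Finset.sum_sub_distrib]
    ring
  have h1 : -∑ l ∈ T \ U, x l ^ 2 * d l ≤ B * E := by
    rw [← Finset.sum_neg_distrib]
    calc ∑ l ∈ T \ U, -(x l ^ 2 * d l) ≤ ∑ l ∈ T \ U, x l ^ 2 * B := by
          refine Finset.sum_le_sum fun l hl => ?_
          rw [← mul_neg]
          exact mul_le_mul_of_nonneg_left
            ((neg_le_abs _).trans (hd l (mem_sdiff.1 hl).1)) (sq_nonneg _)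
      _ ≤ _ := by
          rw [← Finset.sum_mul, mul_comm]
          refine mul_le_mul_of_nonneg_left ?_ hB0
          calc ∑ l ∈ T \ U, x l ^ 2 ≤ ∑ l ∈ univ \ U, x l ^ 2 :=
                Finset.sum_le_sum_of_subset_of_nonneg (sdiff_subset_sdiff (subset_univ _) le_rfl)
                  fun _ _ _ => sq_nonneg _
            _ ≤ E := by linarith
  have h2 : -∑ l ∈ U, (x l ^ 2 - u ^ 2) * d l ≤ B * ((1 + K) * E + u ^ 3 / K) := by
    rw [← Finset.sum_neg_distrib]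
    calc ∑ l ∈ U, -((x l ^ 2 - u ^ 2) * d l)
        ≤ ∑ l ∈ U, B * ((1 + K) * (x l - u) ^ 2 + u ^ 2 / K) := by
          refine Finset.sum_le_sum fun l hl => ?_
          calc -((x l ^ 2 - u ^ 2) * d l) ≤ |x l ^ 2 - u ^ 2| * |d l| := by
                rw [← abs_mul]; exact neg_le_abs _
            _ ≤ ((1 + K) * (x l - u) ^ 2 + u ^ 2 / K) * B :=
                mul_le_mul (sq_dev _ _ _ hK) (hd l (hUT hl)) (abs_nonneg _) (by positivity)
            _ = _ := by ring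
      _ ≤ _ := by
          rw [← Finset.mul_sum, Finset.sum_add_distrib, Finset.sum_const, nsmul_eq_mul,
            ← Finset.mul_sum, ← hu]
          refine mul_le_mul_of_nonneg_left (add_le_add ?_ (le_of_eq (by ring))) hB0
          exact mul_le_mul_of_nonneg_left (by linarith) (by positivity)
  rw [e]; linarith

lemma off_diag (hV : C.Valid) (g : C.Pt → ℝ) (hg : ∀ z, 0 ≤ g z) (d : C.Ln → ℝ)
    (s L Bd Sm : ℝ) (hs : 0 ≤ s) (hL : 1 ≤ L) (hBd0 : 0 ≤ Bd) (hSm : 0 ≤ Sm) (ht : 3 ≤ C.tp)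
    (hBd : ∀ l ∈ C.ordinary, |d l| ≤ Bd)
    (hP : ∀ P : Fin C.tp → C.Pt, ∑ l ∈ C.spanned P, d l ≤ (C.tp : ℝ) ^ 2 * s / L ^ 41)
    (hS : ∀ l ∈ C.ordinary, ∑ z ∈ C.pts l, g z ≤ Sm) :
    ∑ z, ∑ w, g z * g w * pairDev C d z w
      ≤ 4 * s * (∑ z, g z) ^ 2 / L ^ 41 + 2 * Bd * (C.tp : ℝ) * Sm * ∑ z, g z := by
  have hav := avg_pairs hV g hg d _ Bd Sm hBd0 hSm hBd hP hS
  set T1 := ∑ z, g z with hT1
  set O2 := ∑ z, ∑ w, g z * g w * pairDev C d z w with hO2
  set t : ℝ := (C.tp : ℝ) with htdef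
  have hT10 : 0 ≤ T1 := Finset.sum_nonneg fun z _ => hg z
  have ht3 : (3 : ℝ) ≤ t := by rw [htdef]; exact_mod_cast ht
  have hrhs : 0 ≤ 4 * s * T1 ^ 2 / L ^ 41 + 2 * Bd * t * Sm * T1 := by
    have : 0 ≤ t := le_trans (by norm_num) ht3
    positivity
  rcases hT10.eq_or_lt with hz | hpos
  · have : ∀ z, g z = 0 := fun z =>
      (Finset.sum_eq_zero_iff_of_nonneg fun z _ => hg z).1 (hT1 ▸ hz.symm) z (mem_univ z)
    have h0 : O2 = 0 := by simp [hO2, this]
    rw [h0]; exact hrhs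
  · obtain ⟨k, hk⟩ := Nat.exists_eq_add_of_le ht
    rw [show C.tp - 2 = k + 1 by omega, show C.tp - 3 = k by omega,
      show C.tp = k + 3 by omega, pow_succ, pow_add] at hav
    have hTk : 0 < T1 ^ k * T1 := by positivity
    have hkey : t * (t - 1) * O2
        ≤ 2 * (t ^ 2 * s / L ^ 41) * T1 ^ 2 + Bd * t ^ 3 * Sm * T1 := by
      refine le_of_mul_le_mul_left ?_ hTk
      linarith
    by_cases hO : O2 ≤ 0
    · exact hO.trans hrhs
    · push Not at hO
      have h6 : t ^ 2 / 2 * O2 ≤ t * (t - 1) * O2 := by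
        refine mul_le_mul_of_nonneg_right ?_ hO.le
        have := mul_le_mul_of_nonneg_left ht3 (le_trans (by norm_num : (0 : ℝ) ≤ 3) ht3)
        linarith
      refine le_of_mul_le_mul_left ?_ (show (0 : ℝ) < t ^ 2 / 2 by positivity)
      calc t ^ 2 / 2 * O2 ≤ _ := h6.trans hkey
        _ = _ := by ring

end Vale.P045.Baer.Spec
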