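import Vale.Agent.P045.Baer.Spec.Plane
import Vale.Agent.P045.Baer.Spec.Arith

/-!
# P045 spectral step: the truncated degree function
-/

namespace Vale.P045.Baer.Spec

open Finset

variable {C : Cfg}

/-- The degree, kept only above the low threshold. -/
noncomputable def trunc (C : Cfg) (U : Finset C.Ln) (z : C.Pt) : ℝ :=
  if C.th < (C.f U z : ℝ) then (C.f U z : ℝ) else 0

lemma cast_pairs (n : ℕ) : ((n * (n - 1) : ℕ) : ℝ) = (n : ℝ) * ((n : ℝ) - 1) := by
  cases n <;> simp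

lemma trunc_nonneg (U : Finset C.Ln) (z : C.Pt) : 0 ≤ trunc C U z := by
  unfold trunc; split_ifs <;> positivity

lemma trunc_le (U : Finset C.Ln) (z : C.Pt) : trunc C U z ≤ (C.f U z : ℝ) := by
  unfold trunc; split_ifs <;> simp

lemma ff_nonneg (U : Finset C.Ln) (z : C.Pt) :
    (0 : ℝ) ≤ (C.f U z : ℝ) * ((C.f U z : ℝ) - 1) := by
  rw [← cast_pairs]; positivity

lemma th_mul_mass (hV : C.Valid) (U : Finset C.Ln) :
    (C.th - 1) * ∑ z, trunc C U z ≤ (U.card : ℝ) * ((U.card : ℝ) - 1) := by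
  rw [Finset.mul_sum, ← pair_count hV U]
  refine Finset.sum_le_sum fun z _ => ?_
  by_cases hz : C.th < (C.f U z : ℝ)
  · simp only [trunc, if_pos hz]; rw [mul_comm]
    exact mul_le_mul_of_nonneg_left (by linarith) (Nat.cast_nonneg _)
  · simp only [trunc, if_neg hz, mul_zero]; exact ff_nonneg U z

lemma sq_mass_hi (hV : C.Valid) (U : Finset C.Ln) :
    ∑ z, trunc C U z ^ 2 ≤ (U.card : ℝ) ^ 2 + ∑ z, trunc C U z := by
  have h1 : ∑ z, trunc C U z ^ 2
      ≤ ∑ z, (C.f U z : ℝ) * ((C.f U z : ℝ) - 1) + ∑ z, trunc C U z := by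
    rw [← Finset.sum_add_distrib]
    refine Finset.sum_le_sum fun z _ => ?_
    by_cases hz : C.th < (C.f U z : ℝ)
    · simp only [trunc, if_pos hz]; linarith
    · simp only [trunc, if_neg hz]; linarith [ff_nonneg U z]
  rw [pair_count hV U] at h1
  have : (0 : ℝ) ≤ (U.card : ℝ) := Nat.cast_nonneg _
  linarith

lemma sq_mass_lo (hV : C.Valid) (U : Finset C.Ln) :
    (U.card : ℝ) * ((U.card : ℝ) - 1) ≤ ∑ z, trunc C U z ^ 2 + (lowPairs C U : ℝ) := by
  rw [← pair_count hV U, lowPairs, Nat.cast_sum, Finset.sum_filter, ← Finset.sum_add_distrib]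
  refine Finset.sum_le_sum fun z _ => ?_
  rw [cast_pairs]
  by_cases hz : C.th < (C.f U z : ℝ)
  · simp only [trunc, if_pos hz, if_neg (not_le.2 hz)]
    linarith [(C.f U z).cast_nonneg (α := ℝ)]
  · simp only [trunc, if_neg hz, if_pos (not_lt.1 hz)]; simp

lemma sum_lsum_trunc (U : Finset C.Ln) :
    ∑ l ∈ U, lsum C (trunc C U) l = ∑ z, trunc C U z ^ 2 := by
  rw [sum_lsum_in]
  refine Finset.sum_congr rfl fun z _ => ?_
  by_cases hz : C.th < (C.f U z : ℝ)
  · have e : trunc C U z = (C.deg U z : ℝ) := by simp only [trunc, if_pos hz]; rfl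
    rw [e]; ring
  · have e : trunc C U z = 0 := by simp only [trunc, if_neg hz]
    rw [e]; ring

lemma lsum_trunc_le (hV : C.Valid) (U : Finset C.Ln) (l : C.Ln) :
    ∑ z ∈ C.pts l, trunc C U z ≤ (U.card : ℝ) + (C.q : ℝ) := by
  refine (Finset.sum_le_sum fun z _ => trunc_le U z).trans ?_
  rw [deg_line_sum hV U l]
  split_ifs <;> simp

/-- Centred squares outside `U` plus centred squares about `u` on `U`. -/
lemma energy (hV : C.Valid) (U : Finset C.Ln) (g : C.Pt → ℝ) (hq : (1 : ℝ) ≤ (C.q : ℝ)) (u : ℝ)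
    (hu : u = (U.card : ℝ)) :
    (∑ l ∈ univ \ U, (lsum C g l - (∑ z, g z) / C.q) ^ 2)
      + ∑ l ∈ U, (lsum C g l - (∑ z, g z) / C.q - u) ^ 2
      ≤ (C.q : ℝ) * ∑ z, g z ^ 2 - 2 * u * (∑ l ∈ U, lsum C g l - u * ((∑ z, g z) / C.q))
        + u * u ^ 2 := by
  have h := centred_sq hV g hq
  rw [← Finset.sum_sdiff (subset_univ U)] at h
  generalize (∑ z, g z) / (C.q : ℝ) = μ at *
  have e : ∑ l ∈ U, (lsum C g l - μ - u) ^ 2 = ∑ l ∈ U, (lsum C g l - μ) ^ 2
      - 2 * u * (∑ l ∈ U, lsum C g l - u * μ) + u * u ^ 2 := by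
    have hs : ∑ l ∈ U, (lsum C g l - μ) = ∑ l ∈ U, lsum C g l - u * μ := by
      rw [Finset.sum_sub_distrib, Finset.sum_const, nsmul_eq_mul, hu]
    rw [← hs, Finset.mul_sum, ← Finset.sum_sub_distrib]
    have hc : u * u ^ 2 = ∑ _l ∈ U, u ^ 2 := by simp [hu]
    rw [hc, ← Finset.sum_add_distrib]
    exact Finset.sum_congr rfl fun l _ => by ring
  linarith

end Vale.P045.Baer.Spec
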