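import Vale.Agent.P045.Baer.Pins

/-!
# P045 spectral step: incidence identities in the plane
-/

namespace Vale.P045.Baer.Spec

open Finset

variable {C : Cfg}

/-- Sum of a weight over the points of a line. -/
noncomputable def lsum (C : Cfg) (g : C.Pt → ℝ) (l : C.Ln) : ℝ := ∑ z ∈ C.pts l, g z

lemma swap (T : Finset C.Ln) (g : C.Pt → ℝ) (e : C.Ln → ℝ) :
    ∑ l ∈ T, lsum C g l * e l = ∑ z, g z * ∑ l ∈ C.linesIn T z, e l := by
  simp only [lsum, Finset.sum_mul, Finset.mul_sum, Cfg.linesIn]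
  exact Finset.sum_comm' (by intro l z; simp [and_comm])

lemma sum_lsum_in (T : Finset C.Ln) (g : C.Pt → ℝ) :
    ∑ l ∈ T, lsum C g l = ∑ z, g z * (C.deg T z : ℝ) := by
  simpa [Cfg.deg] using swap T g (fun _ => 1)

lemma thru_pair (hV : C.Valid) {z w : C.Pt} (h : z ≠ w) :
    ((C.linesIn univ z).filter fun l => w ∈ C.pts l).card = 1 := by
  obtain ⟨l, hl, hu⟩ := hV.join z w h
  rw [card_eq_one]
  refine ⟨l, ?_⟩
  ext m
  simp only [Cfg.linesIn, mem_filter, mem_univ, true_and, mem_singleton]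
  exact ⟨fun hm => hu m hm, fun hm => hm ▸ hl⟩

lemma pencil_sum (hV : C.Valid) (g : C.Pt → ℝ) (z : C.Pt) :
    ∑ l ∈ C.linesIn univ z, lsum C g l = (C.q : ℝ) * g z + ∑ w, g w := by
  rw [sum_lsum_in, ← Finset.add_sum_erase _ (fun w => g w * _) (mem_univ z),
    ← Finset.add_sum_erase _ g (mem_univ z)]
  have h1 : C.deg (C.linesIn univ z) z = C.q + 1 := by
    rw [← hV.card_thru z]
    simp [Cfg.deg, Cfg.linesIn, Finset.filter_filter]
  have h2 : ∀ w ∈ (univ : Finset C.Pt).erase z,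
      g w * (C.deg (C.linesIn univ z) w : ℝ) = g w := by
    intro w hw
    have := thru_pair hV (ne_of_mem_erase hw).symm
    simp only [Cfg.deg, Cfg.linesIn] at this ⊢
    rw [this]; simp
  rw [Finset.sum_congr rfl h2, h1]; push_cast; ring

lemma sum_lsum (hV : C.Valid) (g : C.Pt → ℝ) :
    ∑ l, lsum C g l = ((C.q : ℝ) + 1) * ∑ z, g z := by
  rw [sum_lsum_in, Finset.mul_sum]
  refine Finset.sum_congr rfl fun z _ => ?_
  rw [hV.card_thru z]; push_cast; ring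

lemma sum_lsum_sq (hV : C.Valid) (g : C.Pt → ℝ) :
    ∑ l, lsum C g l ^ 2 = (C.q : ℝ) * ∑ z, g z ^ 2 + (∑ z, g z) ^ 2 := by
  simp only [pow_two]
  rw [swap, Finset.mul_sum, Finset.sum_mul, ← Finset.sum_add_distrib]
  refine Finset.sum_congr rfl fun z _ => ?_
  rw [pencil_sum hV]; ring

lemma centred_sq (hV : C.Valid) (g : C.Pt → ℝ) (hq : (1 : ℝ) ≤ (C.q : ℝ)) :
    ∑ l, (lsum C g l - (∑ z, g z) / C.q) ^ 2 ≤ (C.q : ℝ) * ∑ z, g z ^ 2 := by
  have hc : ((univ : Finset C.Ln).card : ℝ) = (C.q : ℝ) ^ 2 + C.q + 1 := by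
    rw [Finset.card_univ, hV.card_ln]; push_cast; ring
  have hq0 : (C.q : ℝ) ≠ 0 := by linarith
  simp only [sub_sq, Finset.sum_add_distrib, Finset.sum_sub_distrib, Finset.sum_const,
    nsmul_eq_mul, sum_lsum_sq hV, ← Finset.sum_mul, ← Finset.mul_sum, sum_lsum hV, hc]
  generalize (∑ z, g z ^ 2) = T2
  generalize (∑ z, g z) = T1
  have key : (C.q : ℝ) * T2 + T1 ^ 2 - 2 * (((C.q : ℝ) + 1) * T1) * (T1 / C.q) +
      ((C.q : ℝ) ^ 2 + C.q + 1) * (T1 / C.q) ^ 2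
      = (C.q : ℝ) * T2 - (T1 / C.q) ^ 2 * ((C.q : ℝ) - 1) := by
    field_simp; ring
  rw [key]
  nlinarith [sq_nonneg (T1 / (C.q : ℝ))]

lemma deg_line_sum (hV : C.Valid) (U : Finset C.Ln) (l : C.Ln) :
    ∑ z ∈ C.pts l, (C.f U z : ℝ) = (U.card : ℝ) + (if l ∈ U then (C.q : ℝ) else 0) := by
  have h : ∑ z ∈ C.pts l, C.f U z = ∑ m ∈ U, (C.pts l ∩ C.pts m).card := by
    simp only [Cfg.f, Cfg.deg, Cfg.linesIn, Finset.card_filter]
    rw [Finset.sum_comm]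
    refine Finset.sum_congr rfl fun m _ => ?_
    rw [← Finset.filter_mem_eq_inter, Finset.card_filter]
  have h1 : ∀ m, l ≠ m → (C.pts l ∩ C.pts m).card = 1 := by
    intro m hm
    obtain ⟨z, hz, hu⟩ := hV.meet l m hm
    rw [card_eq_one]
    exact ⟨z, by ext w; simp only [mem_inter, mem_singleton]
                 exact ⟨fun hw => hu w hw, fun hw => hw ▸ hz⟩⟩
  have h2 : ∑ m ∈ U, ((C.pts l ∩ C.pts m).card : ℝ)
      = ∑ m ∈ U, ((1 : ℝ) + if l = m then (C.q : ℝ) else 0) := by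
    refine Finset.sum_congr rfl fun m _ => ?_
    by_cases hm : l = m
    · subst hm; simp [hV.card_pts, add_comm]
    · simp [h1 m hm, hm]
  rw [← Nat.cast_sum, h, Nat.cast_sum, h2, Finset.sum_add_distrib, Finset.sum_ite_eq]
  simp

lemma pair_count (hV : C.Valid) (U : Finset C.Ln) :
    ∑ z, (C.f U z : ℝ) * ((C.f U z : ℝ) - 1) = (U.card : ℝ) * ((U.card : ℝ) - 1) := by
  have h : ∀ z, (C.f U z : ℝ) * ((C.f U z : ℝ) - 1)
      = ((C.f U z : ℝ) - 1) * ∑ _l ∈ C.linesIn U z, (1 : ℝ) := by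
    intro z; simp [Cfg.f, Cfg.deg]; ring
  simp only [h, ← swap, mul_one]
  have h2 : ∀ l ∈ U, lsum C (fun z => (C.f U z : ℝ) - 1) l = (U.card : ℝ) - 1 := by
    intro l hl
    simp [lsum, Finset.sum_sub_distrib, deg_line_sum hV, hl, hV.card_pts]
    ring
  rw [Finset.sum_congr rfl h2]; simp; ring

end Vale.P045.Baer.Spec
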